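import Mathlib

namespace Vale.Agent.P057.H380

/-- The `b`-kernel of a sequence with values in `ℤ ^ r`: all `n ↦ f (b ^ j * n + s)`,
`s < b ^ j`. -/
def kernelSet {r : ℕ} (b : ℕ) (f : ℕ → Fin r → ℤ) : Set (ℕ → Fin r → ℤ) :=
  {g | ∃ j s : ℕ, s < b ^ j ∧ g = fun n => f (b ^ j * n + s)}

end Vale.Agent.P057.H380
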