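import Vale.Agent.P057.R3.H380.Defs
import Vale.Agent.P057.R3.H380.RegDefs
import Vale.Agent.P057.R3.H567.Coord

set_option autoImplicit false

/-!
P057, regular sequences of polylogarithmic growth have representations by integer matrices whose
products grow polynomially.
-/

namespace Vale.Agent.P057.H380

theorem log_bound {b : ℕ} (hb : 2 ≤ b) (j n s : ℕ) (hs : s < b ^ j) :
    Nat.log b (b ^ j * n + s) ≤ j + Nat.log b n := by
  have hb0 : 0 < b := by omega
  rcases Nat.eq_zero_or_pos n with h | h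
  · subst h
    rw [mul_zero, zero_add, Nat.log_zero_right, add_zero]
    rcases Nat.eq_zero_or_pos s with h0 | h0
    · subst h0; simp
    · exact (Nat.log_lt_of_lt_pow h0.ne' hs).le
  · have h1 : b ^ j * n + s < b ^ (j + Nat.log b n + 1) := by
      have h2 : n < b ^ (Nat.log b n + 1) := Nat.lt_pow_succ_log_self (by omega) n
      have h3 : b ^ (j + Nat.log b n + 1) = b ^ j * b ^ (Nat.log b n + 1) := by
        rw [← pow_add, add_assoc]
      rw [h3]
      calc b ^ j * n + s < b ^ j * n + b ^ j := by omega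
        _ = b ^ j * (n + 1) := by ring
        _ ≤ b ^ j * b ^ (Nat.log b n + 1) := Nat.mul_le_mul_left _ h2
    have h4 : b ^ j * n + s ≠ 0 := by
      have : 0 < b ^ j * n := Nat.mul_pos (Nat.pow_pos hb0) h
      omega
    have := Nat.log_lt_of_lt_pow h4 h1
    omega

/-- Growth of a sequence like a power of the number of digits. -/
def Grow {r : ℕ} (b c : ℕ) (g : ℕ → Fin r → ℤ) : Prop :=
  ∃ C : ℕ, ∀ (n : ℕ) (i : Fin r), |g n i| ≤ C * ((Nat.log b n : ℤ) + 1) ^ c

theorem Grow.shift {r b c : ℕ} (hb : 2 ≤ b) {g : ℕ → Fin r → ℤ} (hg : Grow b c g) :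
    ∃ C : ℕ, ∀ (j s n : ℕ) (i : Fin r), s < b ^ j →
      |g (b ^ j * n + s) i| ≤ C * (((j : ℤ) + 1) * ((Nat.log b n : ℤ) + 1)) ^ c := by
  obtain ⟨C, hC⟩ := hg
  refine ⟨C, fun j s n i hs => le_trans (hC _ i) ?_⟩
  have h1 : ((Nat.log b (b ^ j * n + s) : ℕ) : ℤ) ≤ (j : ℤ) + Nat.log b n := by
    exact_mod_cast log_bound hb j n s hs
  have h2 : ((Nat.log b (b ^ j * n + s) : ℕ) : ℤ) + 1 ≤
      ((j : ℤ) + 1) * ((Nat.log b n : ℤ) + 1) := by
    have h3 : (0 : ℤ) ≤ (j : ℤ) * (Nat.log b n : ℤ) := by positivity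
    nlinarith
  exact mul_le_mul_of_nonneg_left (pow_le_pow_left₀ (by positivity) h2 c) (by positivity)

theorem grow_span {r b c : ℕ} (hb : 2 ≤ b) {f : ℕ → Fin r → ℤ} (hf : Grow b c f)
    {g : ℕ → Fin r → ℤ} (hg : g ∈ Submodule.span ℤ (kernelSet b f)) : Grow b c g := by
  induction hg using Submodule.span_induction with
  | mem g hg =>
    obtain ⟨j, s, hs, rfl⟩ := hg
    obtain ⟨C, hC⟩ := hf.shift hb
    refine ⟨C * (j + 1) ^ c, fun n i => le_trans (hC j s n i hs) (le_of_eq ?_)⟩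
    push_cast
    rw [mul_pow]; ring
  | zero => exact ⟨0, fun n i => by simp⟩
  | add g h _ _ hg hh =>
    obtain ⟨C, hC⟩ := hg
    obtain ⟨C', hC'⟩ := hh
    refine ⟨C + C', fun n i => ?_⟩
    rw [Pi.add_apply, Pi.add_apply]
    refine le_trans (abs_add_le _ _) ?_
    have := hC n i
    have := hC' n i
    push_cast
    linarith
  | smul a g _ hg =>
    obtain ⟨C, hC⟩ := hg
    refine ⟨a.natAbs * C, fun n i => ?_⟩
    rw [Pi.smul_apply, Pi.smul_apply, smul_eq_mul, abs_mul]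
    push_cast
    rw [mul_assoc]
    exact mul_le_mul_of_nonneg_left (hC n i) (abs_nonneg a)

theorem coord_comb' {r : ℕ} (V : Submodule ℤ (ℕ → Fin r → ℤ)) (hV : V.FG) (φ : V →ₗ[ℤ] ℤ) :
    ∃ (N : ℤ) (s : Finset (ℕ × Fin r)) (a : ℕ × Fin r → ℤ), N ≠ 0 ∧
      ∀ g : V, N * φ g = ∑ x ∈ s, a x * (g : ℕ → Fin r → ℤ) x.1 x.2 := by
  let e : (ℕ → Fin r → ℤ) ≃ₗ[ℤ] (ℕ × Fin r → ℤ) := (LinearEquiv.curry ℤ ℤ ℕ (Fin r)).symm
  let V' : Submodule ℤ (ℕ × Fin r → ℤ) := V.map (e : (ℕ → Fin r → ℤ) →ₗ[ℤ] (ℕ × Fin r → ℤ))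
  let e' : V ≃ₗ[ℤ] V' := e.submoduleMap V
  obtain ⟨N, s, a, hN, h⟩ := Vale.Agent.P057.H567.coord_comb V' (hV.map _) (φ ∘ₗ (e'.symm : V' →ₗ[ℤ] V))
  refine ⟨N, s, a, hN, fun g => ?_⟩
  have h1 := h (e' g)
  simp only [LinearMap.comp_apply, LinearEquiv.coe_coe, LinearEquiv.symm_apply_apply] at h1
  rw [h1]
  rfl

section

variable {b r : ℕ} (f : ℕ → Fin r → ℤ)

/-- The shift by the digit `d`. -/
def shl (b r d : ℕ) : (ℕ → Fin r → ℤ) →ₗ[ℤ] (ℕ → Fin r → ℤ) :=
  LinearMap.funLeft ℤ (Fin r → ℤ) (fun n : ℕ => b * n + d)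

theorem shl_mem {d : ℕ} (hd : d < b) {g : ℕ → Fin r → ℤ}
    (hg : g ∈ Submodule.span ℤ (kernelSet b f)) :
    shl b r d g ∈ Submodule.span ℤ (kernelSet b f) := by
  induction hg using Submodule.span_induction with
  | mem g hg =>
    obtain ⟨j, s, hs, rfl⟩ := hg
    refine Submodule.subset_span ⟨j + 1, b ^ j * d + s, ?_, ?_⟩
    · calc b ^ j * d + s < b ^ j * d + b ^ j := by omega
        _ = b ^ j * (d + 1) := by ring
        _ ≤ b ^ j * b := Nat.mul_le_mul_left _ hd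
        _ = b ^ (j + 1) := by ring
    · funext n
      change f (b ^ j * (b * n + d) + s) = f (b ^ (j + 1) * n + (b ^ j * d + s))
      congr 1
      ring
  | zero => rw [map_zero]; exact zero_mem _
  | add g h _ _ hg hh => rw [map_add]; exact add_mem hg hh
  | smul a g _ hg => rw [map_smul]; exact Submodule.smul_mem _ _ hg

open Classical in
/-- The shift by a digit on the module spanned by the kernel. -/
noncomputable def Lop (b : ℕ) (d : ℕ) : Submodule.span ℤ (kernelSet b f) →ₗ[ℤ]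
    Submodule.span ℤ (kernelSet b f) :=
  if h : d < b then (shl b r d).restrict (fun _ hg => shl_mem f h hg) else 0

/-- The shift by a word. -/
noncomputable def Lw (b : ℕ) : List ℕ → (Submodule.span ℤ (kernelSet b f) →ₗ[ℤ]
    Submodule.span ℤ (kernelSet b f))
  | [] => LinearMap.id
  | d :: w => Lw b w ∘ₗ Lop f b d

theorem Lw_apply (w : List ℕ) (hw : Dig b w) (g : Submodule.span ℤ (kernelSet b f)) (n : ℕ) :
    (Lw f b w g : ℕ → Fin r → ℤ) n =
      (g : ℕ → Fin r → ℤ) (b ^ w.length * n + Nat.ofDigits b w) := by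
  induction w generalizing g with
  | nil => simp [Lw]
  | cons d w ih =>
    have hd : d < b := hw d (by simp)
    have hw' : Dig b w := fun c hc => hw c (by simp [hc])
    rw [Lw, LinearMap.comp_apply, ih hw']
    rw [Lop, dif_pos hd]
    change (g : ℕ → Fin r → ℤ) (b * (b ^ w.length * n + Nat.ofDigits b w) + d) = _
    rw [Nat.ofDigits_cons, List.length_cons]
    ring_nf

end

theorem ofDigits_lt {b : ℕ} (hb : 2 ≤ b) {w : List ℕ} (hw : Dig b w) :
    Nat.ofDigits b w < b ^ w.length :=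
  Nat.ofDigits_lt_base_pow_length (by omega) (fun x hx => hw x hx)

theorem reg_mat {b r : ℕ} (hb : 2 ≤ b) (f : ℕ → Fin r → ℤ)
    (hf : (Submodule.span ℤ (kernelSet b f)).FG) (C c : ℕ)
    (hg : ∀ (n : ℕ) (i : Fin r), |f n i| ≤ C * ((Nat.log b n : ℤ) + 1) ^ c) :
    ∃ (n : ℕ) (M : ℕ → Matrix (Fin n) (Fin n) ℤ) (Φ : Matrix (Fin n) (Fin n) ℤ → Fin r → ℤ)
      (C' c' : ℕ), (∀ w : List ℕ, Dig b w → ∀ i j : Fin n,
        |(w.map M).prod i j| ≤ C' * ((w.length : ℤ) + 1) ^ c') ∧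
      ∀ w : List ℕ, Dig b w → f (Nat.ofDigits b w) = Φ ((w.map M).prod) := by
  classical
  set V : Submodule ℤ (ℕ → Fin r → ℤ) := Submodule.span ℤ (kernelSet b f) with hV
  have : Module.Finite ℤ V := Module.Finite.iff_fg.2 hf
  have : Module.Free ℤ V := inferInstance
  let B := Module.finBasis ℤ V
  let M : ℕ → Matrix (Fin (Module.finrank ℤ V)) (Fin (Module.finrank ℤ V)) ℤ :=
    fun d => (LinearMap.toMatrix B B (Lop f b d)).transpose
  have hM : ∀ w : List ℕ, (w.map M).prod = (LinearMap.toMatrix B B (Lw f b w)).transpose := by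
    intro w
    induction w with
    | nil => simp [Lw]
    | cons d w ih =>
      rw [List.map_cons, List.prod_cons, ih, Lw, LinearMap.toMatrix_comp B B B,
        Matrix.transpose_mul]
  have hfmem : f ∈ V := by
    refine Submodule.subset_span ⟨0, 0, by simp, ?_⟩
    funext n; simp
  let Φ : Matrix (Fin (Module.finrank ℤ V)) (Fin (Module.finrank ℤ V)) ℤ → Fin r → ℤ :=
    fun X => (Matrix.toLin B B X.transpose ⟨f, hfmem⟩ : V).1 0
  have hgrow : Grow b c f := ⟨C, hg⟩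
  -- bound for one entry
  have hent : ∀ i j : Fin (Module.finrank ℤ V), ∃ C1 : ℕ, ∀ w : List ℕ, Dig b w →
      |(w.map M).prod i j| ≤ C1 * ((w.length : ℤ) + 1) ^ c := by
    intro i j
    obtain ⟨N, s, a, hN, h⟩ := coord_comb' V hf (B.coord j)
    obtain ⟨C2, hC2⟩ := (grow_span hb hgrow (B i).2).shift hb
    refine ⟨∑ x ∈ s, (a x).natAbs * C2 * (Nat.log b x.1 + 1) ^ c, fun w hw => ?_⟩
    have h1 : (w.map M).prod i j = B.coord j (Lw f b w (B i)) := by
      rw [hM, Matrix.transpose_apply, LinearMap.toMatrix_apply]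
      rfl
    rw [h1]
    have h2 := h (Lw f b w (B i))
    have h3 : |B.coord j (Lw f b w (B i))| ≤ |N * B.coord j (Lw f b w (B i))| := by
      rw [abs_mul]
      have : 1 ≤ |N| := Int.one_le_abs hN
      nlinarith [abs_nonneg (B.coord j (Lw f b w (B i)))]
    refine le_trans h3 ?_
    rw [h2]
    refine le_trans (Finset.abs_sum_le_sum_abs _ _) ?_
    push_cast
    rw [Finset.sum_mul]
    refine Finset.sum_le_sum fun x _ => ?_
    rw [abs_mul, Lw_apply f w hw]
    have h4 := hC2 w.length (Nat.ofDigits b w) x.1 x.2 (ofDigits_lt hb hw)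
    calc |a x| * |(B i : ℕ → Fin r → ℤ) (b ^ w.length * x.1 + Nat.ofDigits b w) x.2|
        ≤ |a x| * (C2 * (((w.length : ℤ) + 1) * ((Nat.log b x.1 : ℤ) + 1)) ^ c) :=
          mul_le_mul_of_nonneg_left h4 (abs_nonneg _)
      _ = |a x| * C2 * ((Nat.log b x.1 : ℤ) + 1) ^ c * ((w.length : ℤ) + 1) ^ c := by
          rw [mul_pow]; ring
  choose C1 hC1 using hent
  refine ⟨Module.finrank ℤ V, M, Φ, ∑ i, ∑ j, C1 i j, c, ?_, ?_⟩
  · intro w hw i j
    refine le_trans (hC1 i j w hw) ?_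
    refine mul_le_mul_of_nonneg_right ?_ (by positivity)
    have h5 : C1 i j ≤ ∑ i, ∑ j, C1 i j :=
      le_trans (Finset.single_le_sum (f := fun j => C1 i j) (fun _ _ => Nat.zero_le _)
        (Finset.mem_univ j))
        (Finset.single_le_sum (f := fun i => ∑ j, C1 i j) (fun _ _ => Nat.zero_le _)
          (Finset.mem_univ i))
    exact_mod_cast h5
  · intro w hw
    rw [hM]
    change _ = (Matrix.toLin B B (LinearMap.toMatrix B B (Lw f b w)).transpose.transpose
      ⟨f, hfmem⟩ : V).1 0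
    rw [Matrix.transpose_transpose, Matrix.toLin_toMatrix, Lw_apply f w hw]
    simp

end Vale.Agent.P057.H380
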