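import Mathlib

namespace Vale.Agent.P057.H380

/-- All entries of the word are digits in base `b`. -/
def Dig (b : ℕ) (w : List ℕ) : Prop := ∀ d ∈ w, d < b

/-- The state reached and the total output produced when a word is read. -/
def run {Q B : Type} [AddCommMonoid B] (δ : Q → ℕ → Q × B) : Q → List ℕ → Q × B
  | q, [] => (q, 0)
  | q, d :: w => ((run δ (δ q d).1 w).1, (δ q d).2 + (run δ (δ q d).1 w).2)

/-- The word `(e u e)^N`. -/
def pw (e : List ℕ) (N : ℕ) (u : List ℕ) : List ℕ :=
  (List.replicate N (e ++ u ++ e)).flatten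

/-- A congruence on words. -/
structure Cong (r : List ℕ → List ℕ → Prop) : Prop where
  eqv : Equivalence r
  app : ∀ {u u' v v' : List ℕ}, r u u' → r v v' → r (u ++ v) (u' ++ v')

end Vale.Agent.P057.H380
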