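import Vale.Agent.P057.R3.H380.Defs

namespace Vale.Agent.P057.H380

theorem pw_succ (e : List ℕ) (N : ℕ) (u : List ℕ) :
    pw e (N + 1) u = (e ++ u ++ e) ++ pw e N u := by
  simp [pw, List.replicate_succ]

theorem pw_zero (e u : List ℕ) : pw e 0 u = [] := by simp [pw]

theorem pw_length (e : List ℕ) (N : ℕ) (u : List ℕ) :
    (pw e N u).length = N * (e.length + u.length + e.length) := by
  induction N with
  | zero => simp [pw_zero]
  | succ N ih => rw [pw_succ, List.length_append, ih]; simp only [List.length_append]; ring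

theorem Dig.append {b : ℕ} {u v : List ℕ} (hu : Dig b u) (hv : Dig b v) : Dig b (u ++ v) := by
  intro d hd
  rcases List.mem_append.1 hd with h | h
  · exact hu d h
  · exact hv d h

theorem dig_nil (b : ℕ) : Dig b [] := by intro d hd; simp at hd

theorem pw_dig {b : ℕ} {e u : List ℕ} (he : Dig b e) (hu : Dig b u) (N : ℕ) :
    Dig b (pw e N u) := by
  induction N with
  | zero => rw [pw_zero]; exact dig_nil b
  | succ N ih => rw [pw_succ]; exact ((he.append hu).append he).append ih

theorem pw_congr {r : List ℕ → List ℕ → Prop} (hr : Cong r) {u v : List ℕ} (h : r u v)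
    (e : List ℕ) (N : ℕ) : r (pw e N u) (pw e N v) := by
  induction N with
  | zero => rw [pw_zero, pw_zero]; exact hr.eqv.refl _
  | succ N ih =>
    rw [pw_succ, pw_succ]
    exact hr.app (hr.app (hr.app (hr.eqv.refl _) h) (hr.eqv.refl _)) ih

theorem pw_val {b : ℕ} (hb : 0 < b) (e : List ℕ) (l N : ℕ) :
    ∃ c K : ℕ, (1 ≤ N → 0 < K) ∧ ∀ u : List ℕ, u.length = l →
      Nat.ofDigits b (pw e N u) = c + K * Nat.ofDigits b u := by
  induction N with
  | zero => exact ⟨0, 0, by omega, fun u _ => by simp [pw_zero]⟩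
  | succ N ih =>
    obtain ⟨c, K, _, h⟩ := ih
    refine ⟨Nat.ofDigits b e + b ^ (e.length + l) * Nat.ofDigits b e +
      b ^ (e.length + l + e.length) * c,
      b ^ e.length + b ^ (e.length + l + e.length) * K, fun _ => ?_, fun u hu => ?_⟩
    · have := Nat.pow_pos (n := e.length) hb
      omega
    · rw [pw_succ, Nat.ofDigits_append, Nat.ofDigits_append, Nat.ofDigits_append, h u hu]
      simp only [List.length_append, hu]
      ring

/-- The `m` lowest base `b` digits of `n`. -/
def pad (b : ℕ) : ℕ → ℕ → List ℕ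
  | 0, _ => []
  | m + 1, n => n % b :: pad b m (n / b)

theorem pad_length (b m n : ℕ) : (pad b m n).length = m := by
  induction m generalizing n with
  | zero => simp [pad]
  | succ m ih => simp [pad, ih]

theorem pad_dig {b : ℕ} (hb : 0 < b) (m n : ℕ) : Dig b (pad b m n) := by
  induction m generalizing n with
  | zero => simpa [pad] using dig_nil b
  | succ m ih =>
    intro d hd
    simp only [pad, List.mem_cons] at hd
    rcases hd with h | h
    · rw [h]; exact Nat.mod_lt _ hb
    · exact ih _ d h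

theorem ofDigits_pad {b : ℕ} (m n : ℕ) (hn : n < b ^ m) :
    Nat.ofDigits b (pad b m n) = n := by
  induction m generalizing n with
  | zero => simp at hn; simp [pad, hn]
  | succ m ih =>
    rw [pad, Nat.ofDigits_cons, ih]
    · exact Nat.mod_add_div n b
    · exact Nat.div_lt_of_lt_mul (by rw [pow_succ, mul_comm] at hn; exact hn)

theorem pad_ofDigits {b : ℕ} (g : List ℕ) (hg : Dig b g) :
    pad b g.length (Nat.ofDigits b g) = g := by
  induction g with
  | nil => simp [pad]
  | cons d g ih =>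
    have hd : d < b := hg d (by simp)
    have hg' : Dig b g := fun x hx => hg x (by simp [hx])
    have hb : 0 < b := by omega
    rw [List.length_cons, pad, Nat.ofDigits_cons]
    have h1 : (d + b * Nat.ofDigits b g) % b = d := by
      rw [Nat.add_mul_mod_self_left, Nat.mod_eq_of_lt hd]
    have h2 : (d + b * Nat.ofDigits b g) / b = Nat.ofDigits b g := by
      rw [Nat.add_mul_div_left _ _ hb, Nat.div_eq_of_lt hd, zero_add]
    rw [h1, h2, ih hg']

theorem pad_add {b : ℕ} (hb : 0 < b) (m m' j H : ℕ) (hj : j < b ^ m) :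
    pad b (m + m') (j + b ^ m * H) = pad b m j ++ pad b m' H := by
  induction m generalizing j with
  | zero => simp at hj; simp [pad, hj]
  | succ m ih =>
    have h0 : m + 1 + m' = (m + m') + 1 := by ring
    have h1 : (j + b ^ (m + 1) * H) % b = j % b := by
      rw [pow_succ, mul_comm (b ^ m) b, mul_assoc, Nat.add_mul_mod_self_left]
    have h2 : (j + b ^ (m + 1) * H) / b = j / b + b ^ m * H := by
      rw [pow_succ, mul_comm (b ^ m) b, mul_assoc, Nat.add_mul_div_left _ _ hb]
    rw [h0, pad, h1, h2, ih, pad, List.cons_append]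
    exact Nat.div_lt_of_lt_mul (by rw [pow_succ, mul_comm] at hj; exact hj)

section blocks
variable (Bl : ℕ → List ℕ)

/-- Concatenation of the blocks with index in a range. -/
def cat (t L : ℕ) : List ℕ := ((List.range' t L).map Bl).flatten

theorem cat_zero (t : ℕ) : cat Bl t 0 = [] := by simp [cat]

theorem cat_succ (t L : ℕ) : cat Bl t (L + 1) = Bl t ++ cat Bl (t + 1) L := by
  simp [cat, List.range'_succ]

theorem cat_succ' (t L : ℕ) : cat Bl t (L + 1) = cat Bl t L ++ Bl (t + L) := by
  simp [cat, List.range'_1_concat]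

theorem cat_dig {b : ℕ} (h : ∀ n, Dig b (Bl n)) (t L : ℕ) : Dig b (cat Bl t L) := by
  induction L generalizing t with
  | zero => rw [cat_zero]; exact dig_nil b
  | succ L ih => rw [cat_succ]; exact (h t).append (ih _)

theorem cat_length {Λ : ℕ} (h : ∀ n, (Bl n).length = Λ) (t L : ℕ) :
    (cat Bl t L).length = L * Λ := by
  induction L generalizing t with
  | zero => simp [cat_zero]
  | succ L ih => rw [cat_succ, List.length_append, ih, h]; ring

theorem cat_comm {r : List ℕ → List ℕ → Prop} (hr : Cong r)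
    (hc : ∀ x y, r (Bl x ++ Bl y) (Bl y ++ Bl x)) (x t L : ℕ) :
    r (Bl x ++ cat Bl t L) (cat Bl t L ++ Bl x) := by
  induction L generalizing t with
  | zero => simpa [cat_zero] using hr.eqv.refl _
  | succ L ih =>
    rw [cat_succ]
    have h1 : r (Bl x ++ (Bl t ++ cat Bl (t + 1) L)) (Bl t ++ Bl x ++ cat Bl (t + 1) L) := by
      rw [← List.append_assoc]
      exact hr.app (hc x t) (hr.eqv.refl _)
    have h2 : r (Bl t ++ Bl x ++ cat Bl (t + 1) L) (Bl t ++ cat Bl (t + 1) L ++ Bl x) := by
      rw [List.append_assoc, List.append_assoc]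
      exact hr.app (hr.eqv.refl _) (ih (t + 1))
    exact hr.eqv.trans h1 h2

theorem cat_val {b Λ c K M : ℕ} (hΛ : ∀ n, (Bl n).length = Λ) (hK : 0 < K)
    (hv : ∀ n < M, Nat.ofDigits b (Bl n) = c + K * n) (L : ℕ) :
    ∃ D : ℕ, (1 ≤ L → 0 < D) ∧ ∀ t j, t + L + j ≤ M →
      Nat.ofDigits b (cat Bl (t + j) L) = Nat.ofDigits b (cat Bl t L) + j * D := by
  induction L with
  | zero => exact ⟨0, by omega, fun t j _ => by simp [cat_zero]⟩
  | succ L ih =>
    obtain ⟨D, _, h⟩ := ih
    refine ⟨K + b ^ Λ * D, fun _ => by omega, fun t j htj => ?_⟩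
    have h1 := h (t + 1) j (by omega)
    rw [cat_succ, cat_succ, Nat.ofDigits_append, Nat.ofDigits_append, hΛ, hΛ,
      show t + j + 1 = t + 1 + j by ring, h1, hv (t + j) (by omega), hv t (by omega)]
    ring

end blocks

theorem words {b : ℕ} (hb : 2 ≤ b) {r : List ℕ → List ℕ → Prop} (hr : Cong r) {e : List ℕ}
    (he : Dig b e) {N : ℕ} (hN : 1 ≤ N)
    (hc : ∀ u v : List ℕ, Dig b u → Dig b v →
      r (pw e N u ++ pw e N v) (pw e N v ++ pw e N u)) (k : ℕ) :
    ∃ (w : ℕ → List ℕ) (D m : ℕ), 0 < D ∧ 0 < m ∧ ∀ j < k, Dig b (w j) ∧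
      (w j).length = m ∧ (w j).getLast? = some 1 ∧ r (w 0) (w j) ∧
      Nat.ofDigits b (w j) = Nat.ofDigits b (w 0) + j * D := by
  have hb0 : 0 < b := by omega
  have hd0 : Dig b [0] := by intro d hd; simp at hd; omega
  have hd1 : Dig b [1] := by intro d hd; simp at hd; omega
  -- the two equivalent words
  obtain ⟨c1, K1, hK1, hv1⟩ := pw_val hb0 e 1 N
  have hK1' := hK1 hN
  set P0 := pw e N [0] with hP0
  set P1 := pw e N [1] with hP1
  have hX : Nat.ofDigits b P0 = c1 := by rw [hP0, hv1 [0] rfl]; simp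
  have hY : Nat.ofDigits b P1 = c1 + K1 := by rw [hP1, hv1 [1] rfl]; simp
  have hlen0 : P0.length = N * (e.length + 1 + e.length) := by rw [hP0, pw_length]; rfl
  have hlen1 : P1.length = N * (e.length + 1 + e.length) := by rw [hP1, pw_length]; rfl
  set ℓ := N * (e.length + 1 + e.length) with hℓ
  have hℓ1 : 1 ≤ ℓ := Nat.mul_pos hN (by omega)
  have hpl : 2 ≤ b ^ ℓ := le_trans hb (Nat.le_self_pow (by omega) b)
  set g := P1 ++ P0 with hg
  set g' := P0 ++ P1 with hg'
  have hgd : Dig b g := (pw_dig he hd1 N).append (pw_dig he hd0 N)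
  have hgd' : Dig b g' := (pw_dig he hd0 N).append (pw_dig he hd1 N)
  have hgl : g.length = ℓ + ℓ := by rw [hg, List.length_append, hlen0, hlen1]
  have hgl' : g'.length = ℓ + ℓ := by rw [hg', List.length_append, hlen0, hlen1]
  have hrg : r g g' := hc [1] [0] hd1 hd0
  set H := Nat.ofDigits b g with hH
  set H' := Nat.ofDigits b g' with hH'
  have hHlt : H < H' := by
    rw [hH, hH', hg, hg', Nat.ofDigits_append, Nat.ofDigits_append, hX, hY, hlen0, hlen1]
    nlinarith
  set m1 := ℓ + ℓ with hm1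
  have hpH : pad b m1 H = g := by rw [← hgl, hH]; exact pad_ofDigits g hgd
  have hpH' : pad b m1 H' = g' := by rw [← hgl', hH']; exact pad_ofDigits g' hgd'
  have hH'lt : H' < b ^ m1 := by
    rw [← hgl', hH']
    exact Nat.ofDigits_lt_base_pow_length (by omega) hgd'
  -- blocks
  set M := b ^ (k + m1) with hM
  obtain ⟨c, K, hK, hv⟩ := pw_val hb0 e (k + m1) N
  set Bl : ℕ → List ℕ := fun n => pw e N (pad b (k + m1) n) with hBl
  set Λ := N * (e.length + (k + m1) + e.length) with hΛ
  have hBlen : ∀ n, (Bl n).length = Λ := fun n => by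
    simp only [hBl]; rw [pw_length, pad_length]
  have hBd : ∀ n, Dig b (Bl n) := fun n => pw_dig he (pad_dig hb0 _ _) N
  have hBv : ∀ n < M, Nat.ofDigits b (Bl n) = c + K * n := by
    intro n hn
    simp only [hBl]
    rw [hv _ (pad_length _ _ _), ofDigits_pad _ _ hn]
  have hBc : ∀ x y, r (Bl x ++ Bl y) (Bl y ++ Bl x) := fun x y =>
    hc _ _ (pad_dig hb0 _ _) (pad_dig hb0 _ _)
  obtain ⟨L, hL⟩ : ∃ L, L + 1 = b ^ k * H' - b ^ k * H := by
    have h1 : b ^ k * H < b ^ k * H' := Nat.mul_lt_mul_of_pos_left hHlt (Nat.pow_pos hb0)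
    exact ⟨b ^ k * H' - b ^ k * H - 1, by omega⟩
  have hle : b ^ k * H ≤ b ^ k * H' := Nat.mul_le_mul_left _ hHlt.le
  have hswap : ∀ j < b ^ k, r (Bl (b ^ k * H + j)) (Bl (b ^ k * H + j + (L + 1))) := by
    intro j hj
    refine pw_congr hr ?_ e N
    have e1 : b ^ k * H + j = j + b ^ k * H := by ring
    have e2 : b ^ k * H + j + (L + 1) = j + b ^ k * H' := by omega
    rw [e2, e1, pad_add hb0 _ _ _ _ hj, pad_add hb0 _ _ _ _ hj, hpH, hpH']
    exact hr.app (hr.eqv.refl _) hrg
  have hstep : ∀ j ≤ b ^ k, r (cat Bl (b ^ k * H) (L + 1)) (cat Bl (b ^ k * H + j) (L + 1)) := by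
    intro j
    induction j with
    | zero => intro _; exact hr.eqv.refl _
    | succ j ih =>
      intro hj
      refine hr.eqv.trans (ih (by omega)) ?_
      rw [cat_succ, ← add_assoc, cat_succ' Bl (b ^ k * H + j + 1) L]
      refine hr.eqv.trans (cat_comm Bl hr hBc _ _ _) ?_
      refine hr.app (hr.eqv.refl _) ?_
      have := hswap j (by omega)
      rwa [show b ^ k * H + j + (L + 1) = b ^ k * H + j + 1 + L by ring] at this
  obtain ⟨D, hD, hval⟩ := cat_val Bl hBlen (hK hN) hBv (L + 1)
  have hkb : k < b ^ k := Nat.lt_pow_self (by omega)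
  have hM' : b ^ k * H' + b ^ k ≤ M := by
    have : b ^ k * (H' + 1) ≤ b ^ k * b ^ m1 := Nat.mul_le_mul_left _ hH'lt
    rw [hM, pow_add]
    calc b ^ k * H' + b ^ k = b ^ k * (H' + 1) := by ring
      _ ≤ _ := this
  refine ⟨fun j => cat Bl (b ^ k * H + j) (L + 1) ++ [1], D, (L + 1) * Λ + 1, hD (by omega),
    by omega, fun j hj => ⟨?_, ?_, ?_, ?_, ?_⟩⟩
  · exact (cat_dig Bl hBd _ _).append hd1
  · rw [List.length_append, cat_length Bl hBlen]; rfl
  · simp
  · simp only [add_zero]
    exact hr.app (hstep j (by omega)) (hr.eqv.refl _)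
  · simp only [add_zero]
    rw [Nat.ofDigits_append, Nat.ofDigits_append, cat_length Bl hBlen, cat_length Bl hBlen,
      hval (b ^ k * H) j (by omega)]
    ring

end Vale.Agent.P057.H380
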