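import Vale.Agent.P057.R3.H380.Rel

namespace Vale.Agent.P057.H380
open Finset

/-- The numbers `y` for which `d + B * y` lies in `A`. -/
def br (B d : ℕ) (A : Set ℕ) : Set ℕ := {y | d + B * y ∈ A}

theorem cnt_split {B : ℕ} (hB : 0 < B) (A : Set ℕ) (N : ℕ) :
    cnt A N = ∑ d ∈ range B, cnt (br B d A) ((N + B - 1 - d) / B) := by
  classical
  unfold cnt
  have h1 : ((range N).filter (· ∈ A)).card =
      ∑ d ∈ range B, (((range N).filter (· ∈ A)).filter (fun n => n % B = d)).card :=
    Finset.card_eq_sum_card_fiberwise (fun n _ => Finset.mem_coe.2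
      (Finset.mem_range.2 (Nat.mod_lt _ hB)))
  rw [h1]
  refine Finset.sum_congr rfl fun d hd => ?_
  have hd' := mem_range.1 hd
  refine (Finset.card_bij (fun y _ => d + B * y) ?_ ?_ ?_).symm
  · intro y hy
    simp only [mem_filter, mem_range, br, Set.mem_setOf_eq] at hy ⊢
    obtain ⟨h2, h3⟩ := hy
    have h4 : (y + 1) * B ≤ N + B - 1 - d := by
      rwa [Nat.lt_iff_add_one_le, Nat.le_div_iff_mul_le hB] at h2
    have h5 : (y + 1) * B = B * y + B := by ring
    refine ⟨⟨by omega, h3⟩, ?_⟩
    rw [Nat.add_mul_mod_self_left, Nat.mod_eq_of_lt hd']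
  · intro y _ y' _ h
    have h6 : B * y = B * y' := by simpa using h
    exact Nat.eq_of_mul_eq_mul_left hB h6
  · intro n hn
    simp only [mem_filter, mem_range] at hn
    obtain ⟨⟨h2, h3⟩, h4⟩ := hn
    have h5 : d + B * (n / B) = n := by
      have := Nat.mod_add_div n B
      rwa [h4] at this
    refine ⟨n / B, ?_, h5⟩
    simp only [mem_filter, mem_range, br, Set.mem_setOf_eq]
    refine ⟨?_, by rw [h5]; exact h3⟩
    rw [Nat.lt_iff_add_one_le, Nat.le_div_iff_mul_le hB]
    have h6 : (n / B + 1) * B = B * (n / B) + B := by ring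
    omega

theorem cnt_mono {A : Set ℕ} {N M : ℕ} (h : N ≤ M) : cnt A N ≤ cnt A M := by
  classical
  unfold cnt
  exact Finset.card_le_card (Finset.filter_subset_filter _ (Finset.range_mono h))

theorem cnt_le (A : Set ℕ) (N : ℕ) : cnt A N ≤ N := by
  classical
  unfold cnt
  exact le_trans (Finset.card_filter_le _ _) (by rw [Finset.card_range])

theorem cnt_succ (A : Set ℕ) (N : ℕ) : cnt A (N + 1) ≤ cnt A N + 1 := by
  classical
  unfold cnt
  rw [Finset.range_add_one, Finset.filter_insert]
  split_ifs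
  · exact Finset.card_insert_le _ _
  · omega

theorem cnt_le_add_one {A : Set ℕ} {N M : ℕ} (h : N ≤ M + 1) : cnt A N ≤ cnt A M + 1 :=
  le_trans (cnt_mono h) (cnt_succ A M)

theorem vpart {B v D K : ℕ} (hD : 0 < D) (hvB : v < B)
    {A : Set ℕ} (hA : ∀ n j : ℕ, j < K → n % B = v → (n ∈ A ↔ n + j * D ∈ A))
    {k ρ : ℕ} (hρ : ∀ F : Finset ℕ, F ⊆ Finset.range K → ¬ HasAP k (F : Set ℕ) → F.card ≤ ρ)
    {A' : Set ℕ} (hsub : A' ⊆ A) (hno : ¬ HasAP k A') (M : ℕ) :
    ∑ j ∈ range K, cnt (br B (v + j * D) A') M ≤ ρ * cnt (br B v A) M := by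
  classical
  unfold cnt
  simp only [Finset.card_filter]
  rw [Finset.sum_comm, Finset.mul_sum]
  refine Finset.sum_le_sum fun y _ => ?_
  rw [← Finset.card_filter]
  by_cases hy : y ∈ br B v A
  · rw [if_pos hy, mul_one]
    refine hρ _ (Finset.filter_subset _ _) ?_
    rintro ⟨a, d, hd, had⟩
    apply hno
    refine ⟨v + a * D + B * y, d * D, Nat.mul_pos hd hD, fun i hi => ?_⟩
    have h1 := had i hi
    simp only [Finset.coe_filter, Set.mem_setOf_eq, mem_range, br] at h1
    have h2 := h1.2
    have e : v + a * D + B * y + i * (d * D) = v + (a + i * d) * D + B * y := by ring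
    rw [e]; exact h2
  · rw [if_neg hy, mul_zero, Nat.le_zero, Finset.card_eq_zero, Finset.filter_eq_empty_iff]
    intro j hj hj'
    apply hy
    have h1 : v + j * D + B * y ∈ A := hsub hj'
    have h2 := hA (v + B * y) j (mem_range.1 hj)
      (by rw [Nat.add_mul_mod_self_left, Nat.mod_eq_of_lt hvB])
    have e : v + B * y + j * D = v + j * D + B * y := by ring
    rw [e] at h2
    exact h2.2 h1

theorem part {B v D K : ℕ} (hv : 0 < v) (hD : 0 < D) (hK : 2 ≤ K)
    (hV : ∀ j < K, v + j * D < B) (T : ℕ) :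
    ∀ A : Set ℕ, (∀ n i j : ℕ, j < K → n / B ^ i % B = v →
        (n ∈ A ↔ n + j * (D * B ^ i) ∈ A)) →
      ∀ k ρ : ℕ, (∀ F : Finset ℕ, F ⊆ Finset.range K → ¬ HasAP k (F : Set ℕ) → F.card ≤ ρ) →
      ∀ A' : Set ℕ, A' ⊆ A → ¬ HasAP k A' → ∀ N : ℕ, N ≤ B ^ T →
        K * cnt A' N ≤ ρ * cnt A N + 2 * K ^ 2 * (B - 1) ^ T := by
  have hvB : v < B := by simpa using hV 0 (by omega)
  have hB0 : 0 < B := by omega
  have hKB : K + 1 ≤ B := by
    have h1 := hV (K - 1) (by omega)
    have h2 : K - 1 ≤ (K - 1) * D := Nat.le_mul_of_pos_right _ hD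
    omega
  induction T with
  | zero =>
    intro A _ k ρ _ A' _ _ N hN
    have h1 : cnt A' N ≤ 1 := le_trans (cnt_le A' N) (by simpa using hN)
    have h2 : K * cnt A' N ≤ K * 1 := Nat.mul_le_mul_left _ h1
    have h3 : K ≤ 2 * K ^ 2 * (B - 1) ^ 0 := by
      rw [pow_zero, mul_one]; nlinarith
    omega
  | succ T ih =>
    intro A hA k ρ hρ A' hsub hno N hN
    classical
    set E := 2 * K ^ 2 * (B - 1) ^ T with hE
    set Nd : ℕ → ℕ := fun d => (N + B - 1 - d) / B with hNd
    have hNdle : ∀ d, Nd d ≤ B ^ T := by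
      intro d
      simp only [hNd]
      rw [← Nat.lt_add_one_iff, Nat.div_lt_iff_lt_mul hB0]
      have : (B ^ T + 1) * B = B ^ (T + 1) + B := by ring
      omega
    have hbrA : ∀ d < B, ∀ n i j : ℕ, j < K → n / B ^ i % B = v →
        (n ∈ br B d A ↔ n + j * (D * B ^ i) ∈ br B d A) := by
      intro d hd n i j hj hn
      have h1 : (d + B * n) / B ^ (i + 1) % B = v := by
        rw [pow_succ, mul_comm (B ^ i) B, ← Nat.div_div_eq_div_mul,
          Nat.add_mul_div_left _ _ hB0, Nat.div_eq_of_lt hd, zero_add]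
        exact hn
      have h2 := hA (d + B * n) (i + 1) j hj h1
      simp only [br, Set.mem_setOf_eq]
      rw [h2]
      have e : d + B * n + j * (D * B ^ (i + 1)) = d + B * (n + j * (D * B ^ i)) := by ring
      rw [e]
    have hbrsub : ∀ d, br B d A' ⊆ br B d A := fun d y hy => hsub hy
    have hbrno : ∀ d, ¬ HasAP k (br B d A') := by
      rintro d ⟨a, s, hs, has⟩
      apply hno
      refine ⟨d + B * a, B * s, Nat.mul_pos hB0 hs, fun i hi => ?_⟩
      have h1 := has i hi
      simp only [br, Set.mem_setOf_eq] at h1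
      have e : d + B * a + i * (B * s) = d + B * (a + i * s) := by ring
      rw [e]; exact h1
    have hall : ∀ d ∈ range B, K * cnt (br B d A') (Nd d) ≤ ρ * cnt (br B d A) (Nd d) + E :=
      fun d hd => ih (br B d A) (hbrA d (mem_range.1 hd)) k ρ hρ (br B d A') (hbrsub d)
        (hbrno d) (Nd d) (hNdle d)
    set V : Finset ℕ := (range K).image (fun j => v + j * D) with hVdef
    have hinj : Function.Injective (fun j : ℕ => v + j * D) := by
      intro x y hxy
      have : x * D = y * D := by simpa using hxy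
      exact Nat.eq_of_mul_eq_mul_right hD this
    have hVcard : V.card = K := by
      rw [hVdef, Finset.card_image_of_injective _ hinj, card_range]
    have hVsub : V ⊆ range B := by
      intro d hd
      rw [hVdef, mem_image] at hd
      obtain ⟨j, hj, rfl⟩ := hd
      exact mem_range.2 (hV j (mem_range.1 hj))
    have hAeq : ∀ j < K, br B (v + j * D) A = br B v A := by
      intro j hj
      ext y
      simp only [br, Set.mem_setOf_eq]
      have h2 := hA (v + B * y) 0 j hj
        (by rw [pow_zero, Nat.div_one, Nat.add_mul_mod_self_left, Nat.mod_eq_of_lt hvB])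
      rw [pow_zero, mul_one] at h2
      have e : v + B * y + j * D = v + j * D + B * y := by ring
      rw [e] at h2
      exact h2.symm
    set M := Nd (v + (K - 1) * D) with hM
    have hle1 : ∀ j < K, M ≤ Nd (v + j * D) := by
      intro j hj
      simp only [hM, hNd]
      apply Nat.div_le_div_right
      have : j * D ≤ (K - 1) * D := Nat.mul_le_mul_right _ (by omega)
      omega
    have hle2 : ∀ j < K, Nd (v + j * D) ≤ M + 1 := by
      intro j hj
      simp only [hM, hNd]
      rw [← Nat.add_div_right _ hB0]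
      apply Nat.div_le_div_right
      have := hV (K - 1) (by omega)
      omega
    have hVsum : K * ∑ d ∈ V, cnt (br B d A') (Nd d) ≤
        ρ * ∑ d ∈ V, cnt (br B d A) (Nd d) + K ^ 2 := by
      rw [hVdef, Finset.sum_image fun x _ y _ h => hinj h,
        Finset.sum_image fun x _ y _ h => hinj h]
      have h1 : ∑ j ∈ range K, cnt (br B (v + j * D) A') (Nd (v + j * D)) ≤
          ρ * cnt (br B v A) M + K := by
        calc ∑ j ∈ range K, cnt (br B (v + j * D) A') (Nd (v + j * D))
            ≤ ∑ j ∈ range K, (cnt (br B (v + j * D) A') M + 1) :=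
              Finset.sum_le_sum fun j hj => cnt_le_add_one (hle2 j (mem_range.1 hj))
          _ = ∑ j ∈ range K, cnt (br B (v + j * D) A') M + K := by
              rw [Finset.sum_add_distrib]; simp
          _ ≤ ρ * cnt (br B v A) M + K := by
              apply Nat.add_le_add_right
              refine vpart hD hvB (fun n j hj hn => ?_) hρ hsub hno M
              have := hA n 0 j hj (by rw [pow_zero, Nat.div_one]; exact hn)
              rwa [pow_zero, mul_one] at this
      have h2 : K * cnt (br B v A) M ≤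
          ∑ j ∈ range K, cnt (br B (v + j * D) A) (Nd (v + j * D)) := by
        calc K * cnt (br B v A) M = ∑ j ∈ range K, cnt (br B v A) M := by simp
          _ ≤ _ := Finset.sum_le_sum fun j hj => by
              rw [hAeq j (mem_range.1 hj)]
              exact cnt_mono (hle1 j (mem_range.1 hj))
      calc K * ∑ j ∈ range K, cnt (br B (v + j * D) A') (Nd (v + j * D))
          ≤ K * (ρ * cnt (br B v A) M + K) := Nat.mul_le_mul_left _ h1
        _ = ρ * (K * cnt (br B v A) M) + K ^ 2 := by ring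
        _ ≤ _ := Nat.add_le_add_right (Nat.mul_le_mul_left _ h2) _
    have hRsum : K * ∑ d ∈ range B \ V, cnt (br B d A') (Nd d) ≤
        ρ * ∑ d ∈ range B \ V, cnt (br B d A) (Nd d) + (B - K) * E := by
      rw [Finset.mul_sum, Finset.mul_sum]
      calc ∑ d ∈ range B \ V, K * cnt (br B d A') (Nd d)
          ≤ ∑ d ∈ range B \ V, (ρ * cnt (br B d A) (Nd d) + E) :=
            Finset.sum_le_sum fun d hd => hall d (Finset.mem_sdiff.1 hd).1
        _ = ∑ d ∈ range B \ V, ρ * cnt (br B d A) (Nd d) + (B - K) * E := by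
            rw [Finset.sum_add_distrib, Finset.sum_const, Finset.card_sdiff_of_subset hVsub,
              hVcard, card_range, smul_eq_mul]
    have hs1 := Finset.sum_sdiff (f := fun d => cnt (br B d A') (Nd d)) hVsub
    have hs2 := Finset.sum_sdiff (f := fun d => cnt (br B d A) (Nd d)) hVsub
    rw [cnt_split hB0 A' N, cnt_split hB0 A N]
    change K * ∑ d ∈ range B, cnt (br B d A') (Nd d) ≤
      ρ * ∑ d ∈ range B, cnt (br B d A) (Nd d) + 2 * K ^ 2 * (B - 1) ^ (T + 1)
    rw [← hs1, ← hs2, mul_add, mul_add]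
    have hE1 : K ^ 2 ≤ E := by
      have h5 : 1 ≤ (B - 1) ^ T := Nat.one_le_pow _ _ (by omega)
      rw [hE]; nlinarith [Nat.zero_le (K ^ 2)]
    have hE2 : (B - K) * E + K ^ 2 ≤ 2 * K ^ 2 * (B - 1) ^ (T + 1) := by
      calc (B - K) * E + K ^ 2 ≤ (B - K) * E + E := by omega
        _ = (B - K + 1) * E := by ring
        _ ≤ (B - 1) * E := Nat.mul_le_mul_right _ (by omega)
        _ = 2 * K ^ 2 * (B - 1) ^ (T + 1) := by rw [hE]; ring
    omega

end Vale.Agent.P057.H380
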