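import Vale.Agent.P057.R3.H380.RingDefs
import Vale.Agent.P057.R3.H706.Idem
import Vale.Agent.P057.R3.H664.Fin

set_option autoImplicit false

/-!
P057, digit statistics with values in a ring: the digits are multiplied in a ring in which the
products take finitely many values modulo a nilpotent ideal.
-/

namespace Vale.Agent.P057.H380

open Vale.Agent.P057.R3.H664 (Chain words_nil)

theorem ring_pow_le {R : Type} [Ring R] (I : Ideal R) [I.IsTwoSided] {m n : ℕ} (h : m ≤ n) :
    I ^ n ≤ I ^ m := by
  obtain ⟨l, rfl⟩ := Nat.exists_eq_add_of_le h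
  rw [Ideal.IsTwoSided.pow_add]
  exact Ideal.mul_le_left

theorem ring_chain {R : Type} [Ring R] (I : Ideal R) [I.IsTwoSided] {d : ℕ} (hI : I ^ d = ⊥)
    (x : ℕ → R) {p : R} (hp : p * p = p) :
    Chain (fun i u v => val x u - val x v ∈ I ^ (d - i))
      {w | p * val x w = val x w ∧ val x w * p = val x w ∧ val x w - p ∈ I} d where
  cong i := by
    refine ⟨⟨fun u => by simp, fun {u v} h => ?_, fun {u v w} h h' => ?_⟩, ?_⟩
    · rw [← neg_sub]; exact neg_mem h
    · have := add_mem h h'
      rwa [sub_add_sub_cancel] at this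
    · intro u u' v v' h h'
      rw [val_append, val_append]
      have e : val x u * val x v - val x u' * val x v' =
          (val x u - val x u') * val x v + val x u' * (val x v - val x v') := by noncomm_ring
      rw [e]
      exact add_mem (Ideal.mul_mem_right _ _ h) (Ideal.mul_mem_left _ _ h')
  bot i u v h := by
    rw [Nat.sub_zero, hI, Ideal.mem_bot] at h
    rw [h]; exact zero_mem _
  app u hu v hv := by
    obtain ⟨h1, h2, h3⟩ := hu
    obtain ⟨h4, h5, h6⟩ := hv
    refine ⟨?_, ?_, ?_⟩
    · rw [val_append, ← mul_assoc, h1]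
    · rw [val_append, mul_assoc, h5]
    · rw [val_append]
      have e : val x u * val x v - p = (val x u - p) * val x v + p * (val x v - p) := by
        rw [mul_sub, hp]; noncomm_ring
      rw [e]
      exact add_mem (Ideal.mul_mem_right _ _ h3) (Ideal.mul_mem_left _ _ h6)
  top u _ v _ := by
    rw [Nat.sub_self, Submodule.pow_zero, Ideal.one_eq_top]
    exact Submodule.mem_top
  comm i u hu v hv h := by
    obtain ⟨h1, h2, h3⟩ := hu
    obtain ⟨h4, h5, h6⟩ := hv
    rw [val_append, val_append]
    set U := val x u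
    set V := val x v
    have e : U * V - V * U = (U - V) * (U - p) - (U - p) * (U - V) := by
      have e1 : (U - V) * p = U - V := by rw [sub_mul, h2, h5]
      have e2 : p * (U - V) = U - V := by rw [mul_sub, h1, h4]
      rw [mul_sub (U - V), e1, sub_mul U p, e2]
      noncomm_ring
    rw [e]
    refine ring_pow_le I (show d - i ≤ d - (i + 1) + 1 by omega) ?_
    refine sub_mem ?_ ?_
    · rw [Ideal.IsTwoSided.pow_add, Submodule.pow_one]
      exact Ideal.mul_mem_mul h h3
    · rw [add_comm, Ideal.IsTwoSided.pow_add, Submodule.pow_one]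
      exact Ideal.mul_mem_mul h3 h

theorem val_pw {R : Type} [Ring R] (x : ℕ → R) (e : List ℕ) (N : ℕ) (u : List ℕ) :
    val x (pw e N u) = (val x e * val x u * val x e) ^ N := by
  simp [pw, val, List.map_flatten, List.prod_flatten, List.map_replicate, mul_assoc]

theorem val_rep {R : Type} [Ring R] (x : ℕ → R) (w : List ℕ) (d : ℕ) :
    val x (List.replicate d w).flatten = val x w ^ d := by
  simp [val, List.map_flatten, List.prod_flatten, List.map_replicate]

theorem pw_nil_left (e : List ℕ) (n : ℕ) : pw e (n + 1) [] = e ++ (e ++ pw e n []) := by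
  simp [pw, List.replicate_succ]

theorem pw_nil_right (e : List ℕ) (n : ℕ) : pw e (n + 1) [] = (pw e n [] ++ e) ++ e := by
  simp [pw, List.replicate_succ']

theorem pw_digits {b : ℕ} {e u : List ℕ} (he : Dig b e) (hu : Dig b u) (N : ℕ) :
    Dig b (pw e N u) := by
  intro c hc
  rw [pw, List.mem_flatten] at hc
  obtain ⟨l, hl, hcl⟩ := hc
  rw [List.eq_of_mem_replicate hl, List.mem_append, List.mem_append] at hcl
  rcases hcl with (h | h) | h
  · exact he c h
  · exact hu c h
  · exact he c h

theorem ring_words {R : Type} [Ring R] (I : Ideal R) [I.IsTwoSided] {d : ℕ}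
    (hI : I ^ d = ⊥) {b : ℕ} (hb : 2 ≤ b) (x : ℕ → R)
    (hfin : ∃ T : Set R, T.Finite ∧ ∀ w : List ℕ, Dig b w → ∃ t ∈ T, val x w - t ∈ I) (k : ℕ) :
    ∃ (w : ℕ → List ℕ) (D m : ℕ), 0 < D ∧ 0 < m ∧ ∀ j < k, Dig b (w j) ∧
      (w j).length = m ∧ (w j).getLast? = some 1 ∧ val x (w 0) = val x (w j) ∧
      Nat.ofDigits b (w j) = Nat.ofDigits b (w 0) + j * D := by
  have hI' : I ^ (d + 1) = ⊥ := by
    rw [Ideal.IsTwoSided.pow_add, hI]
    simp
  obtain ⟨e, N, he, hN, hP⟩ := Vale.Agent.P057.R3.H664.fin_row I x hfin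
  set E0 := pw e N [] with hE0
  have hnil : Dig b [] := by intro c hc; simp at hc
  have hE0d : Dig b E0 := pw_digits he hnil N
  set a := val x E0 with ha
  have haa : a * a - a ∈ I := (hP [] (by intro d hd; simp at hd)).2
  obtain ⟨p, hp, hpa, hpl, hpr⟩ := Vale.Agent.P057.H706.idem_row I (show 1 ≤ d + 1 by omega) hI' a haa
  set e' := (List.replicate (d + 1) E0).flatten with he'
  have he'd : Dig b e' := by
    intro c hc
    rw [he', List.mem_flatten] at hc
    obtain ⟨l, hl, hcl⟩ := hc
    rw [List.eq_of_mem_replicate hl] at hcl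
    exact hE0d c hcl
  have hve' : val x e' = a ^ (d + 1) := by rw [he', val_rep]
  have hS : ∀ u : List ℕ, Dig b u → pw e' N u ∈
      {w | p * val x w = val x w ∧ val x w * p = val x w ∧ val x w - p ∈ I} := by
    intro u hu
    obtain ⟨n, rfl⟩ : ∃ n, N = n + 1 := ⟨N - 1, by omega⟩
    refine ⟨?_, ?_, ?_⟩
    · rw [val_pw, hve', pow_succ', ← mul_assoc, ← mul_assoc, ← mul_assoc, hpl]
    · rw [val_pw, hve', pow_succ, mul_assoc, mul_assoc (a ^ (d + 1) * val x u), hpr]
    · -- modulo the ideal
      have h1 : (Ideal.Quotient.mk I) p = (Ideal.Quotient.mk I) a :=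
        (Ideal.Quotient.eq).2 hpa
      have h2 : (Ideal.Quotient.mk I) a * (Ideal.Quotient.mk I) a = (Ideal.Quotient.mk I) a := by
        rw [← map_mul]; exact (Ideal.Quotient.eq).2 haa
      have h3 : (Ideal.Quotient.mk I) a ^ (d + 1) = (Ideal.Quotient.mk I) a :=
        IsIdempotentElem.pow_succ_eq d h2
      have h4 : e ++ ((e ++ pw e n []) ++ u ++ (pw e n [] ++ e)) ++ e = E0 ++ u ++ E0 := by
        have h5 : E0 = e ++ (e ++ pw e n []) := by rw [hE0, pw_nil_left]
        have h6 : E0 = (pw e n [] ++ e) ++ e := by rw [hE0, pw_nil_right]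
        calc e ++ ((e ++ pw e n []) ++ u ++ (pw e n [] ++ e)) ++ e
            = (e ++ (e ++ pw e n [])) ++ u ++ ((pw e n [] ++ e) ++ e) := by
              simp only [List.append_assoc]
          _ = E0 ++ u ++ E0 := by rw [← h5, ← h6]
      have h7 : pw E0 (n + 1) u =
          pw e (n + 1) ((e ++ pw e n []) ++ u ++ (pw e n [] ++ e)) := by
        rw [pw, pw, h4]
      have hmid : Dig b ((e ++ pw e n []) ++ u ++ (pw e n [] ++ e)) := by
        have h8 : Dig b (pw e n []) := pw_digits he hnil n
        intro c hc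
        simp only [List.mem_append] at hc
        rcases hc with ((h | h) | h) | (h | h)
        · exact he c h
        · exact h8 c h
        · exact hu c h
        · exact h8 c h
        · exact he c h
      have h9 := (Ideal.Quotient.eq).2 (hP _ hmid).1
      rw [← h7, val_pw, ← ha] at h9
      apply (Ideal.Quotient.eq).1
      rw [h1, val_pw, hve', ← h9]
      simp only [map_pow, map_mul, h3]
  obtain ⟨w, D, m, hD, hm, hw⟩ := words_nil hb (ring_chain I hI' x hp) he'd hN hS k
  refine ⟨w, D, m, hD, hm, fun j hj => ?_⟩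
  obtain ⟨h1, h2, h3, h4, h5⟩ := hw j hj
  refine ⟨h1, h2, h3, ?_, h5⟩
  rw [Nat.sub_zero, hI', Ideal.mem_bot] at h4
  exact sub_eq_zero.1 h4

end Vale.Agent.P057.H380
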