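import Vale.Agent.P057.R3.H380.Reg
import Vale.Agent.P057.R3.H380.Ring
import Vale.Agent.P057.R3.H664.MatRing
import Vale.Agent.P057.R3.H973.NI
import Vale.Agent.P057.R3.H244.TrNil
import Vale.Agent.P057.R3.H244.TrBound

set_option autoImplicit false

/-!
P057, regular sequences of polylogarithmic growth: equivalent words in arithmetic progression.
-/

namespace Vale.Agent.P057.H380

/-- A regular sequence of polylogarithmic growth is read off from products in a ring which are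
finite in number modulo a nilpotent ideal. -/
theorem reg_ring {b r : ℕ} (hb : 2 ≤ b) (f : ℕ → Fin r → ℤ)
    (hf : (Submodule.span ℤ (kernelSet b f)).FG) (C c : ℕ)
    (hg : ∀ (n : ℕ) (i : Fin r), |f n i| ≤ C * ((Nat.log b n : ℤ) + 1) ^ c) :
    ∃ (R : Type) (_ : Ring R) (I : Ideal R) (_ : I.IsTwoSided) (x : ℕ → R),
      (∃ d : ℕ, I ^ d = ⊥) ∧
      (∃ T : Set R, T.Finite ∧ ∀ w : List ℕ, Dig b w → ∃ t ∈ T, val x w - t ∈ I) ∧
      ∀ m n : ℕ, val x (Nat.digits b m) = val x (Nat.digits b n) → f m = f n := by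
  obtain ⟨n, M, Φ, C', c', hM, hΦ⟩ := reg_mat hb f hf C c hg
  obtain ⟨R, iR, I, iI, x, hI, hT, hx⟩ := Vale.Agent.P057.R3.H664.mat_ring_of
    (fun A C c h => Vale.Agent.P057.R3.H244.tr_bound A C c h) (fun A h => Vale.Agent.P057.R3.H244.tr_nil A h)
    (fun I _ h => Vale.Agent.P057.H973.nil_ideal I h) M C' c' hM
  refine ⟨R, iR, I, iI, x, hI, hT, fun m k h => ?_⟩
  have hdig : ∀ a : ℕ, Dig b (Nat.digits b a) := fun a d hd => Nat.digits_lt_base (by omega) hd
  have h1 := hx _ _ (hdig m) (hdig k) h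
  have h2 := hΦ _ (hdig m)
  have h3 := hΦ _ (hdig k)
  rw [Nat.ofDigits_digits] at h2 h3
  rw [h2, h3, h1]

end Vale.Agent.P057.H380
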