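import Vale.Agent.P057.R3.H380.Defs

namespace Vale.Agent.P057.H380

open Classical in
/-- Number of elements of `A` below `N`. -/
noncomputable def cnt (A : Set ℕ) (N : ℕ) : ℕ := ((Finset.range N).filter (· ∈ A)).card

/-- `A` contains a progression of length `k` with positive difference. -/
def HasAP (k : ℕ) (A : Set ℕ) : Prop := ∃ a d : ℕ, 0 < d ∧ ∀ j < k, a + j * d ∈ A

end Vale.Agent.P057.H380
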