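import Vale.Agent.P057.R3.H664.NilAut

namespace Vale.Agent.P057.H380

/-- The product of the values of the digits of a word, in the order of reading. -/
def val {R : Type} [Ring R] (x : ℕ → R) (w : List ℕ) : R := (w.map x).prod

theorem val_append {R : Type} [Ring R] (x : ℕ → R) (u v : List ℕ) :
    val x (u ++ v) = val x u * val x v := by simp [val]

end Vale.Agent.P057.H380
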